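import Vale.Agent.P254.Uncond.Req2140.Data

/-!
The tests of the intervals 2, 6, 29, 47, 51, in one declaration so that they run one
after the other.
-/

namespace Vale.Agent.P254.Uncond.Req2140

open Check

set_option maxHeartbeats 20000000 in
theorem partB_ok :
    RCell.ok cert.P cert.e₁ cell1.b cell1.eb cell2 = true ∧
    RCell.ok cert.P cert.e₁ cell5.b cell5.eb cell6 = true ∧
    RCell.ok cert.P cert.e₁ cell28.b cell28.eb cell29 = true ∧
    RCell.ok cert.P cert.e₁ cell46.b cell46.eb cell47 = true ∧
    RCell.ok cert.P cert.e₁ cell50.b cell50.eb cell51 = true := by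
  refine ⟨?_, ?_, ?_, ?_, ?_⟩ <;> decide +kernel

end Vale.Agent.P254.Uncond.Req2140
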