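import Vale.Agent.P254.Uncond.Req2140.Data

/-!
The tests of the intervals 0, 1, 10, 46, 54, in one declaration so that they run one
after the other.
-/

namespace Vale.Agent.P254.Uncond.Req2140

open Check

set_option maxHeartbeats 20000000 in
theorem partC_ok :
    RCell.ok cert.P cert.e₁ cert.first.b cert.first.eb cell0 = true ∧
    RCell.ok cert.P cert.e₁ cell0.b cell0.eb cell1 = true ∧
    RCell.ok cert.P cert.e₁ cell9.b cell9.eb cell10 = true ∧
    RCell.ok cert.P cert.e₁ cell45.b cell45.eb cell46 = true ∧
    RCell.ok cert.P cert.e₁ cell53.b cell53.eb cell54 = true := by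
  refine ⟨?_, ?_, ?_, ?_, ?_⟩ <;> decide +kernel

end Vale.Agent.P254.Uncond.Req2140
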