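import Vale.Agent.P254.Uncond.Req2140.Data

/-!
The tests of the intervals 12, 16, 18, 21, 45, in one declaration so that they run one
after the other.
-/

namespace Vale.Agent.P254.Uncond.Req2140

open Check

set_option maxHeartbeats 20000000 in
theorem partD_ok :
    RCell.ok cert.P cert.e₁ cell11.b cell11.eb cell12 = true ∧
    RCell.ok cert.P cert.e₁ cell15.b cell15.eb cell16 = true ∧
    RCell.ok cert.P cert.e₁ cell17.b cell17.eb cell18 = true ∧
    RCell.ok cert.P cert.e₁ cell20.b cell20.eb cell21 = true ∧
    RCell.ok cert.P cert.e₁ cell44.b cell44.eb cell45 = true := by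
  refine ⟨?_, ?_, ?_, ?_, ?_⟩ <;> decide +kernel

end Vale.Agent.P254.Uncond.Req2140
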