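import Vale.Agent.P254.Uncond.Req2140.Data

/-!
The tests of the intervals 4, 9, 26, 37, 44, in one declaration so that they run one
after the other.
-/

namespace Vale.Agent.P254.Uncond.Req2140

open Check

set_option maxHeartbeats 20000000 in
theorem partE_ok :
    RCell.ok cert.P cert.e₁ cell3.b cell3.eb cell4 = true ∧
    RCell.ok cert.P cert.e₁ cell8.b cell8.eb cell9 = true ∧
    RCell.ok cert.P cert.e₁ cell25.b cell25.eb cell26 = true ∧
    RCell.ok cert.P cert.e₁ cell36.b cell36.eb cell37 = true ∧
    RCell.ok cert.P cert.e₁ cell43.b cell43.eb cell44 = true := by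
  refine ⟨?_, ?_, ?_, ?_, ?_⟩ <;> decide +kernel

end Vale.Agent.P254.Uncond.Req2140
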