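import Vale.Agent.P254.Uncond.Req2140.Data

/-!
The tests of the intervals 3, 5, 33, 39, 49, in one declaration so that they run one
after the other.
-/

namespace Vale.Agent.P254.Uncond.Req2140

open Check

set_option maxHeartbeats 20000000 in
theorem partF_ok :
    RCell.ok cert.P cert.e₁ cell2.b cell2.eb cell3 = true ∧
    RCell.ok cert.P cert.e₁ cell4.b cell4.eb cell5 = true ∧
    RCell.ok cert.P cert.e₁ cell32.b cell32.eb cell33 = true ∧
    RCell.ok cert.P cert.e₁ cell38.b cell38.eb cell39 = true ∧
    RCell.ok cert.P cert.e₁ cell48.b cell48.eb cell49 = true := by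
  refine ⟨?_, ?_, ?_, ?_, ?_⟩ <;> decide +kernel

end Vale.Agent.P254.Uncond.Req2140
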