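import Vale.Agent.P254.Uncond.Req2140.Data

/-!
The tests of the intervals 11, 34, 40, 42, 52, in one declaration so that they run one
after the other.
-/

namespace Vale.Agent.P254.Uncond.Req2140

open Check

set_option maxHeartbeats 20000000 in
theorem partG_ok :
    RCell.ok cert.P cert.e₁ cell10.b cell10.eb cell11 = true ∧
    RCell.ok cert.P cert.e₁ cell33.b cell33.eb cell34 = true ∧
    RCell.ok cert.P cert.e₁ cell39.b cell39.eb cell40 = true ∧
    RCell.ok cert.P cert.e₁ cell41.b cell41.eb cell42 = true ∧
    RCell.ok cert.P cert.e₁ cell51.b cell51.eb cell52 = true := by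
  refine ⟨?_, ?_, ?_, ?_, ?_⟩ <;> decide +kernel

end Vale.Agent.P254.Uncond.Req2140
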