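import Vale.Agent.P254.Uncond.Req2140.Data

/-!
The tests of the intervals 8, 17, 32, 48, 53, in one declaration so that they run one
after the other.
-/

namespace Vale.Agent.P254.Uncond.Req2140

open Check

set_option maxHeartbeats 20000000 in
theorem partH_ok :
    RCell.ok cert.P cert.e₁ cell7.b cell7.eb cell8 = true ∧
    RCell.ok cert.P cert.e₁ cell16.b cell16.eb cell17 = true ∧
    RCell.ok cert.P cert.e₁ cell31.b cell31.eb cell32 = true ∧
    RCell.ok cert.P cert.e₁ cell47.b cell47.eb cell48 = true ∧
    RCell.ok cert.P cert.e₁ cell52.b cell52.eb cell53 = true := by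
  refine ⟨?_, ?_, ?_, ?_, ?_⟩ <;> decide +kernel

end Vale.Agent.P254.Uncond.Req2140
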