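import Vale.Agent.P254.Uncond.Req2140.Data

/-!
The tests of the intervals 15, 22, 23, 25, 30, in one declaration so that they run one
after the other.
-/

namespace Vale.Agent.P254.Uncond.Req2140

open Check

set_option maxHeartbeats 20000000 in
theorem partI_ok :
    RCell.ok cert.P cert.e₁ cell14.b cell14.eb cell15 = true ∧
    RCell.ok cert.P cert.e₁ cell21.b cell21.eb cell22 = true ∧
    RCell.ok cert.P cert.e₁ cell22.b cell22.eb cell23 = true ∧
    RCell.ok cert.P cert.e₁ cell24.b cell24.eb cell25 = true ∧
    RCell.ok cert.P cert.e₁ cell29.b cell29.eb cell30 = true := by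
  refine ⟨?_, ?_, ?_, ?_, ?_⟩ <;> decide +kernel

end Vale.Agent.P254.Uncond.Req2140
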