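import Vale.Agent.P254.Uncond.Req2140.Data

/-!
The tests of the intervals 14, 20, 24, 28, 43, in one declaration so that they run one
after the other.
-/

namespace Vale.Agent.P254.Uncond.Req2140

open Check

set_option maxHeartbeats 20000000 in
theorem partJ_ok :
    RCell.ok cert.P cert.e₁ cell13.b cell13.eb cell14 = true ∧
    RCell.ok cert.P cert.e₁ cell19.b cell19.eb cell20 = true ∧
    RCell.ok cert.P cert.e₁ cell23.b cell23.eb cell24 = true ∧
    RCell.ok cert.P cert.e₁ cell27.b cell27.eb cell28 = true ∧
    RCell.ok cert.P cert.e₁ cell42.b cell42.eb cell43 = true := by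
  refine ⟨?_, ?_, ?_, ?_, ?_⟩ <;> decide +kernel

end Vale.Agent.P254.Uncond.Req2140
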