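import Vale.Agent.P254.Uncond.Req2140.Data

/-!
The tests of the intervals 13, 19, 27, 35, 38, in one declaration so that they run one
after the other.
-/

namespace Vale.Agent.P254.Uncond.Req2140

open Check

set_option maxHeartbeats 20000000 in
theorem partK_ok :
    RCell.ok cert.P cert.e₁ cell12.b cell12.eb cell13 = true ∧
    RCell.ok cert.P cert.e₁ cell18.b cell18.eb cell19 = true ∧
    RCell.ok cert.P cert.e₁ cell26.b cell26.eb cell27 = true ∧
    RCell.ok cert.P cert.e₁ cell34.b cell34.eb cell35 = true ∧
    RCell.ok cert.P cert.e₁ cell37.b cell37.eb cell38 = true := by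
  refine ⟨?_, ?_, ?_, ?_, ?_⟩ <;> decide +kernel

end Vale.Agent.P254.Uncond.Req2140
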