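import Vale.Agent.P254.Uncond.Req2140.Data

/-!
The tests of the intervals 7, 31, 36, 41, 50, in one declaration so that they run one
after the other.
-/

namespace Vale.Agent.P254.Uncond.Req2140

open Check

set_option maxHeartbeats 20000000 in
theorem partA_ok :
    RCell.ok cert.P cert.e₁ cell6.b cell6.eb cell7 = true ∧
    RCell.ok cert.P cert.e₁ cell30.b cell30.eb cell31 = true ∧
    RCell.ok cert.P cert.e₁ cell35.b cell35.eb cell36 = true ∧
    RCell.ok cert.P cert.e₁ cell40.b cell40.eb cell41 = true ∧
    RCell.ok cert.P cert.e₁ cell49.b cell49.eb cell50 = true := by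
  refine ⟨?_, ?_, ?_, ?_, ?_⟩ <;> decide +kernel

end Vale.Agent.P254.Uncond.Req2140
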